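import Vale.Agent.P208.Main

namespace Vale.Agent.Results.P208.NoBiLipschitzEmbedding

open Vale.Agent.P208

private lemma orthonormal_single :
    Orthonormal ℝ (fun n : ℕ => (lp.single 2 n (1 : ℝ) : lp (fun _ : ℕ => ℝ) 2)) := by
  rw [orthonormal_iff_ite]
  intro i j
  rw [lp.inner_single_left, lp.single_apply]
  by_cases h : i = j
  · subst h; simp
  · simp [h]

/-- A doubling subset of real separable Hilbert space with no bi-Lipschitz embedding into any
finite dimensional Euclidean space. -/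
theorem result : ∃ X : Set (lp (fun _ : ℕ => ℝ) 2),
    (∃ K : ℕ, ∀ x ∈ X, ∀ r : ℝ, 0 < r → ∃ C : Finset (lp (fun _ : ℕ => ℝ) 2),
      (C : Set (lp (fun _ : ℕ => ℝ) 2)) ⊆ X ∧ C.card ≤ K ∧
        ∀ y ∈ X, dist y x ≤ r → ∃ c ∈ C, dist y c < r / 2) ∧
    ∀ (k : ℕ) (f : X → EuclideanSpace ℝ (Fin k)) (a D : ℝ), 0 < a →
      ¬ ∀ x y : X, a * dist x y ≤ dist (f x) (f y) ∧ dist (f x) (f y) ≤ D * (a * dist x y) := by
  classical
  refine ⟨bigSet (fun n : ℕ => (lp.single 2 n (1 : ℝ) : lp (fun _ : ℕ => ℝ) 2)),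
    bigSet_doubling orthonormal_single, ?_⟩
  set e : ℕ → lp (fun _ : ℕ => ℝ) 2 := fun n => lp.single 2 n (1 : ℝ) with he
  intro k f a D ha hf
  let F : lp (fun _ : ℕ => ℝ) 2 → EuclideanSpace ℝ (Fin k) := fun p =>
    if h : p ∈ bigSet e then a⁻¹ • f ⟨p, h⟩ else 0
  refine not_biLip (e := e) (F := F) (D := max D 1) ⟨orthonormal_single, le_max_right _ _, ?_, ?_⟩
  · intro p hp q hq
    simp only [F, dif_pos hp, dif_pos hq, ← smul_sub, norm_smul, norm_inv,
      Real.norm_of_nonneg ha.le, ← dist_eq_norm]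
    rw [inv_mul_le_iff₀ ha]
    refine (hf ⟨p, hp⟩ ⟨q, hq⟩).2.trans ?_
    rw [mul_left_comm]
    exact mul_le_mul_of_nonneg_left
      (mul_le_mul_of_nonneg_right (le_max_left _ _) dist_nonneg) ha.le
  · intro p hp q hq
    simp only [F, dif_pos hp, dif_pos hq, ← smul_sub, norm_smul, norm_inv,
      Real.norm_of_nonneg ha.le, ← dist_eq_norm]
    rw [le_inv_mul_iff₀ ha]
    exact (hf ⟨p, hp⟩ ⟨q, hq⟩).1

end Vale.Agent.Results.P208.NoBiLipschitzEmbedding
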